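import Vale.Agent.P216T2.Lift

/-!
# P216T2: the family of polygons on a torus
-/

open Set Filter Topology

namespace Vale.Agent.P216T2
open Vale.Agent.P216

/-- Horizontal position at distance `ρ` from the centre. -/
noncomputable def gg (σ A B l ρ : ℝ) : ℝ :=
  min A (σ * (min ρ (max (l - B - 1) 0) + max (ρ - l - 1) 0))

/-- Height at distance `ρ` from the centre. -/
noncomputable def ht (B l ρ : ℝ) : ℝ := max 0 (min 1 ((l - ρ) / B))

variable {σ A B l ρ : ℝ}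

theorem gg_zero (hA : 0 ≤ A) (hl : 0 ≤ l) : gg σ A B l 0 = 0 := by
  unfold gg
  rw [min_eq_left (le_max_right _ _), max_eq_right (by linarith : 0 - l - 1 ≤ 0)]
  simp [hA]

theorem gg_top (hσ : 0 ≤ σ) (hB : 0 ≤ B) (h : A ≤ σ * (ρ - B - 2)) : gg σ A B l ρ = A := by
  refine min_eq_left (h.trans (mul_le_mul_of_nonneg_left ?_ hσ))
  rcases le_total ρ (max (l - B - 1) 0) with h1 | h1
  · rw [min_eq_left h1]; linarith [le_max_right (ρ - l - 1) 0]
  · rw [min_eq_right h1]; linarith [le_max_left (ρ - l - 1) 0, le_max_left (l - B - 1) 0]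

theorem gg_step (hσ : 0 ≤ σ) (hB : 0 ≤ B) (hρ : 0 ≤ ρ) :
    |gg σ A B l (ρ + 1) - gg σ A B l ρ| ≤ σ := by
  have h : |min (ρ + 1) (max (l - B - 1) 0) + max (ρ + 1 - l - 1) 0 -
      (min ρ (max (l - B - 1) 0) + max (ρ - l - 1) 0)| ≤ 1 := by
    rw [abs_le]
    simp only [min_def, max_def]
    split_ifs <;> constructor <;> linarith
  unfold gg
  refine (abs_min_sub_min_le_max _ _ _ _).trans (max_le (by simpa using hσ) ?_)
  rw [← mul_sub, abs_mul, abs_of_nonneg hσ]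
  exact mul_le_of_le_one_right hσ h

theorem gg_pause (hρ : 0 ≤ ρ) (h1 : l - B - 1 ≤ ρ) (h2 : ρ ≤ l) :
    gg σ A B l (ρ + 1) = gg σ A B l ρ := by
  have h3 : max (l - B - 1) 0 ≤ ρ := max_le h1 hρ
  unfold gg
  rw [min_eq_right h3, min_eq_right (by linarith : max (l - B - 1) 0 ≤ ρ + 1),
    max_eq_right (by linarith : ρ + 1 - l - 1 ≤ 0), max_eq_right (by linarith : ρ - l - 1 ≤ 0)]

theorem ht_zero (hB : 0 < B) (h : l ≤ ρ) : ht B l ρ = 0 :=
  max_eq_left ((min_le_right _ _).trans (div_nonpos_of_nonpos_of_nonneg (by linarith) hB.le))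

theorem ht_one (hB : 0 < B) (h : ρ + B ≤ l) : ht B l ρ = 1 := by
  unfold ht
  rw [min_eq_left ((le_div_iff₀ hB).2 (by linarith)), max_eq_right zero_le_one]

theorem ht_mem : ht B l ρ ∈ Icc (0 : ℝ) 1 :=
  ⟨le_max_left _ _, max_le zero_le_one (min_le_left _ _)⟩

theorem ht_step (hB : 0 < B) : |ht B l (ρ + 1) - ht B l ρ| ≤ 1 / B := by
  unfold ht
  refine (abs_max_sub_max_le_max _ _ _ _).trans (max_le (by simpa using hB.le) ?_)
  refine (abs_min_sub_min_le_max _ _ _ _).trans (max_le (by simpa using hB.le) (le_of_eq ?_))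
  rw [show (l - (ρ + 1)) / B - (l - ρ) / B = -(1 / B) by ring, abs_neg, abs_of_pos (by positivity)]

/-- The interpolation weight. -/
noncomputable def mu (T τ : ℝ) : ℝ := max 0 (min 1 (min τ (T + 2 - τ)))

/-- The size of the raised part. -/
noncomputable def la (T τ : ℝ) : ℝ := max 0 (min T (τ - 1))

/-- The vertices in the plane. -/
noncomputable def pt (σ A B d : ℝ) (N : ℕ) (τ : ℝ) (k : ℕ) : ℝ × ℝ :=
  (ht B (la (N + B) τ) |(k : ℝ) - N|, (1 - mu (N + B) τ) * (k * d) + mu (N + B) τ *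
    (if k ≤ N then A - gg σ A B (la (N + B) τ) |(k : ℝ) - N|
      else A + gg σ A B (la (N + B) τ) |(k : ℝ) - N|))

variable {d τ T : ℝ} {N : ℕ}

theorem continuous_pt (k : ℕ) : Continuous fun τ => pt σ A B d N τ k := by
  unfold pt ht mu gg la
  split_ifs <;> fun_prop

theorem mu_mem : mu T τ ∈ Icc (0 : ℝ) 1 := ⟨le_max_left _ _, max_le zero_le_one (min_le_left _ _)⟩

theorem mu_one (h0 : 0 < la T τ) (h1 : la T τ < T) : mu T τ = 1 := by
  unfold la at h0 h1
  have h2 : 0 < τ - 1 := by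
    rcases lt_max_iff.1 h0 with h | h
    · exact absurd h (lt_irrefl _)
    · exact (lt_min_iff.1 h).2
  have h3 : τ - 1 < T := by
    rcases min_lt_iff.1 (max_lt_iff.1 h1).2 with h | h
    · exact absurd h (lt_irrefl _)
    · exact h
  unfold mu
  rw [min_eq_left (le_min (by linarith) (by linarith)), max_eq_right zero_le_one]

theorem pt_start (hB : 0 < B) (k : ℕ) : pt σ A B d N 0 k = (0, k * d) := by
  have h1 : mu (N + B) 0 = 0 := by
    unfold mu
    exact max_eq_left ((min_le_right _ _).trans (min_le_left _ _))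
  have h2 : la (N + B) 0 = 0 := max_eq_left ((min_le_right _ _).trans (by norm_num))
  unfold pt
  rw [h1, h2, ht_zero hB (abs_nonneg _)]; simp

theorem pt_end (hB : 0 < B) {k : ℕ} (hk : k ≤ 2 * N) :
    pt σ A B d N (N + B + 2) k = (1, k * d) := by
  have h1 : mu (N + B) (N + B + 2) = 0 := by
    unfold mu
    exact max_eq_left ((min_le_right _ _).trans ((min_le_right _ _).trans (by simp)))
  have h2 : la (N + B) (N + B + 2) = N + B := by
    unfold la
    rw [min_eq_left (by linarith), max_eq_right (by positivity)]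
  have h3 : (k : ℝ) ≤ 2 * N := by exact_mod_cast hk
  have h4 : |(k : ℝ) - N| ≤ N := abs_le.2 ⟨by linarith [Nat.cast_nonneg (α := ℝ) k], by linarith⟩
  unfold pt
  rw [h1, h2, ht_one hB (by linarith)]; simp

theorem pt_per (hσ : 0 ≤ σ) (hB : 0 < B) (hN : 0 < N) (hA : A ≤ σ * (N - B - 2))
    (hd : 2 * N * d = 2 * A) :
    pt σ A B d N τ (2 * N) = ((pt σ A B d N τ 0).1, (pt σ A B d N τ 0).2 + 2 * A) := by
  have h1 : |((2 * N : ℕ) : ℝ) - N| = N := by
    push_cast; rw [show 2 * (N : ℝ) - N = N by ring, Nat.abs_cast]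
  have h2 : |((0 : ℕ) : ℝ) - N| = N := by simp
  unfold pt
  rw [h1, h2, if_neg (by omega), if_pos (Nat.zero_le _), gg_top hσ hB.le hA]
  refine Prod.ext rfl ?_
  push_cast
  rw [hd]; ring

theorem pt_step (hσ : 0 ≤ σ) (hB : 0 < B) (hA : 0 ≤ A) (hd0 : 0 ≤ d) (hd : d ≤ σ) {k : ℕ}
    (hk : k < 2 * N) {p q : ℝ × ℝ} (hp : pt σ A B d N τ k = p) (hq : pt σ A B d N τ (k + 1) = q) :
    ((p.1 = 0 ∧ q.1 = 0 ∨ p.1 = 1 ∧ q.1 = 1) ∧ |q.2 - p.2| ≤ σ) ∨
      (q.2 = p.2 ∧ |q.1 - p.1| ≤ 1 / B) := by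
  set l := la (N + B) τ with hl
  set m := mu (N + B) τ with hm
  have hl0 : 0 ≤ l := le_max_left _ _
  obtain ⟨ρ, u, h0, h1, e1, e2, e3⟩ : ∃ ρ u : ℝ, 0 ≤ ρ ∧ ρ + 1 ≤ N ∧
      u = gg σ A B l (ρ + 1) - gg σ A B l ρ ∧ q.2 - p.2 = (1 - m) * d + m * u ∧
      (p.1 = ht B l ρ ∧ q.1 = ht B l (ρ + 1) ∨ q.1 = ht B l ρ ∧ p.1 = ht B l (ρ + 1)) := by
    subst hp hq
    rcases lt_or_ge k N with h | h
    · have h' : (k : ℝ) + 1 ≤ N := by exact_mod_cast h
      have a1 : |(k : ℝ) - N| = N - k - 1 + 1 := by rw [abs_of_nonpos (by linarith)]; ring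
      have a2 : |((k + 1 : ℕ) : ℝ) - N| = N - k - 1 := by
        push_cast; rw [abs_of_nonpos (by linarith)]; ring
      refine ⟨N - k - 1, _, by linarith, by linarith [Nat.cast_nonneg (α := ℝ) k], rfl, ?_,
        Or.inr ?_⟩
      · simp only [pt, a1, a2, if_pos h.le, if_pos (Nat.succ_le_of_lt h), ← hl, ← hm]
        push_cast; ring
      · simp only [pt, a1, a2, ← hl, and_self]
    · have h' : (N : ℝ) ≤ k := by exact_mod_cast h
      have h'' : (k : ℝ) + 1 ≤ 2 * N := by exact_mod_cast hk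
      have a1 : |(k : ℝ) - N| = k - N := abs_of_nonneg (by linarith)
      have a2 : |((k + 1 : ℕ) : ℝ) - N| = k - N + 1 := by
        push_cast; rw [abs_of_nonneg (by linarith)]; ring
      refine ⟨k - N, _, by linarith, by linarith, rfl, ?_, Or.inl ?_⟩
      · have a3 : (if k ≤ N then A - gg σ A B l (k - N) else A + gg σ A B l (k - N)) =
            A + gg σ A B l (k - N) := by
          split_ifs with h3
          · rw [le_antisymm h3 h, sub_self, gg_zero hA hl0]; ring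
          · rfl
        simp only [pt, a1, a2, if_neg (by omega : ¬ k + 1 ≤ N), ← hl, ← hm, a3]
        push_cast; ring
      · simp only [pt, a1, a2, ← hl, and_self]
  have hs : |q.2 - p.2| ≤ σ := by
    have h2 := gg_step (A := A) (l := l) hσ hB.le h0
    have h3 : m ∈ Icc (0 : ℝ) 1 := mu_mem
    rw [← e1, abs_le] at h2
    rw [e2, abs_le]
    constructor <;> nlinarith [h3.1, h3.2, h2.1, h2.2]
  by_cases c1 : l ≤ ρ
  · rw [ht_zero hB c1, ht_zero hB (by linarith : l ≤ ρ + 1)] at e3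
    exact Or.inl ⟨Or.inl (e3.elim id And.symm), hs⟩
  by_cases c2 : ρ + 1 + B ≤ l
  · rw [ht_one hB c2, ht_one hB (by linarith : ρ + B ≤ l)] at e3
    exact Or.inl ⟨Or.inr (e3.elim id And.symm), hs⟩
  right
  have hm1 : m = 1 := mu_one (by linarith) (by linarith)
  rw [gg_pause h0 (by linarith) (by linarith), sub_self] at e1
  refine ⟨by rw [hm1, e1] at e2; linarith, ?_⟩
  rcases e3 with ⟨h2, h3⟩ | ⟨h2, h3⟩
  · rw [h2, h3]; exact ht_step hB
  · rw [h2, h3, abs_sub_comm]; exact ht_step hB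

variable {M G : Type} [MetricSpace M] [Group G] {C : LocalCocycle M G}

theorem exists_vert {Φ : ℝ × ℝ → M} (hΦ : Continuous Φ) {L : ℝ} (hL : 0 < L)
    (hp : ∀ s t, Φ (s, t + L) = Φ (s, t)) (hσ : 0 < σ) : ∃ B : ℕ, 0 < B ∧
      ∀ s ∈ Icc (0 : ℝ) 1, ∀ s' ∈ Icc (0 : ℝ) 1, ∀ t, |s' - s| ≤ 1 / B →
        dist (Φ (s, t)) (Φ (s', t)) ≤ σ := by
  obtain ⟨ε, hε, h⟩ := Metric.uniformContinuousOn_iff.1
    (((isCompact_Icc (a := (0 : ℝ)) (b := 1)).prod (isCompact_Icc (a := (0 : ℝ)) (b := L))).uniformContinuousOn_of_continuous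
      hΦ.continuousOn) σ hσ
  obtain ⟨n, hn⟩ := exists_nat_one_div_lt hε
  refine ⟨n + 1, n.succ_pos, fun s hs s' hs' t hss => ?_⟩
  have h1 : ∀ s, Φ (s, t) = Φ (s, Int.fract (t / L) * L) := fun s => by
    have := Function.Periodic.int_mul (f := fun t => Φ (s, t)) (hp s) ⌊t / L⌋
      (Int.fract (t / L) * L)
    simp only [] at this
    rw [← this, ← add_mul, Int.fract_add_floor, div_mul_cancel₀ _ hL.ne']
  have h2 : Int.fract (t / L) * L ∈ Icc 0 L := ⟨mul_nonneg (Int.fract_nonneg _) hL.le,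
    mul_le_of_le_one_left hL.le (Int.fract_lt_one _).le⟩
  rw [h1 s, h1 s']
  refine (h _ ⟨hs, h2⟩ _ ⟨hs', h2⟩ ?_).le
  rw [Prod.dist_eq, dist_self, max_eq_left dist_nonneg, Real.dist_eq, abs_sub_comm]
  push_cast at hss
  exact hss.trans_lt hn

/-- The family of polygons from the axis to its translate. -/
theorem exists_family {Φ : ℝ × ℝ → M} {F : ℝ × ℝ → G} (hΦ : Continuous Φ) {L : ℝ} (hL : 0 < L)
    (hp : ∀ s t, Φ (s, t + L) = Φ (s, t)) {c : ℝ → M} (hc : ∀ s t, dist (c s) (c t) ≤ |s - t|)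
    (h0 : ∀ t, Φ (0, t) = c t) (h1 : ∀ t, Φ (1, t) = c t) (hF : Lf C Φ F) {K₀ : ℕ} (hσ : 0 < σ)
    (hK : K₀ * σ = L) : ∃ B : ℕ, ∀ (n K : ℕ) [NeZero K] (d : ℝ), K = 2 * (n * K₀ + B) →
      K * d = 2 * n * L → ∃ (x : ℝ → ZMod K → M) (a : ℝ → G) (T : ℝ), Continuous x ∧
        (∀ s, x s ∈ St M K σ) ∧ Lf C (fun s => x s 0) a ∧ (∀ k, x 0 k = c (k.val * d + 0)) ∧
        (∀ k, x T k = c (k.val * d + 0)) ∧ a 0 = F (0, 0) ∧ a T = F (1, 0) := by
  obtain ⟨B, hB, hv⟩ := exists_vert hΦ hL hp hσ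
  refine ⟨B + 2, fun n K _ d hKN hd => ?_⟩
  set N := n * K₀ + (B + 2) with hN
  have hB' : (0 : ℝ) < B := Nat.cast_pos.2 hB
  have hN' : (N : ℝ) = n * K₀ + (B + 2) := by rw [hN]; push_cast; ring
  have hK' : (K : ℝ) = 2 * N := by rw [hKN]; push_cast; ring
  have hN0 : (0 : ℝ) < N := by rw [hN']; positivity
  have hA : n * L ≤ σ * (N - B - 2) := by rw [hN', ← hK]; exact le_of_eq (by ring)
  have hd2 : 2 * N * d = 2 * (n * L) := by rw [← hK', hd]; ring
  have hd0 : 0 ≤ d := by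
    by_contra hn
    have : 0 ≤ n * L := by positivity
    nlinarith
  have hdσ : d ≤ σ := by
    by_contra hn
    nlinarith
  refine ⟨fun s k => Φ (pt σ (n * L) B d N s k.val), fun s => F (pt σ (n * L) B d N s 0),
    N + B + 2, continuous_pi fun k => hΦ.comp (continuous_pt _), fun s k => ?_, ?_, fun k => ?_,
    fun k => ?_, ?_, ?_⟩
  · have e : Φ (pt σ (n * L) B d N s (k + 1).val) = Φ (pt σ (n * L) B d N s (k.val + 1)) := by
      have hk := ZMod.val_lt k
      rcases (Nat.succ_le_of_lt hk).eq_or_lt with h | h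
      · have h2 : k + 1 = 0 := by
          rw [← ZMod.natCast_zmod_val k, ← Nat.cast_succ, h, ZMod.natCast_self]
        have h3 := Function.Periodic.nat_mul (f := fun t => Φ ((pt σ (n * L) B d N s 0).1, t))
          (hp _) (2 * n) (pt σ (n * L) B d N s 0).2
        rw [h2, ZMod.val_zero, show k.val + 1 = 2 * N from h.trans hKN,
          pt_per hσ.le hB' (by omega) hA hd2]
        simp only [Prod.mk.eta] at h3
        rw [← h3]; congr 2; push_cast; ring
      · rw [← ZMod.natCast_zmod_val k, ← Nat.cast_succ, ZMod.val_cast_of_lt h,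
          ZMod.val_cast_of_lt hk]
    show dist (Φ _) (Φ _) ≤ σ
    rw [e]
    have hs := pt_step (τ := s) (N := N) hσ.le hB' (by positivity : 0 ≤ n * L) hd0 hdσ
      ((ZMod.val_lt k).trans_eq hKN) rfl rfl
    have m1 : (pt σ (n * L) B d N s k.val).1 ∈ Icc (0 : ℝ) 1 := ht_mem
    have m2 : (pt σ (n * L) B d N s (k.val + 1)).1 ∈ Icc (0 : ℝ) 1 := ht_mem
    generalize pt σ (n * L) B d N s k.val = p at *
    generalize pt σ (n * L) B d N s (k.val + 1) = q at *
    obtain ⟨p1, p2⟩ := p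
    obtain ⟨q1, q2⟩ := q
    rcases hs with ⟨⟨rfl, rfl⟩ | ⟨rfl, rfl⟩, h⟩ | ⟨rfl, h⟩
    · rw [h0, h0]; exact (hc _ _).trans (by rwa [abs_sub_comm])
    · rw [h1, h1]; exact (hc _ _).trans (by rwa [abs_sub_comm])
    · exact hv _ m1 _ m2 _ h
  · simpa using hF.comp (continuous_pt (σ := σ) (A := n * L) (B := B) (d := d) (N := N) 0)
  · simp only [pt_start hB', h0, add_zero]
  · simp only [pt_end hB' ((ZMod.val_lt k).trans_eq hKN).le, h1, add_zero]
  · simp [pt_start hB']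
  · simp [pt_end hB' (Nat.zero_le _)]

end Vale.Agent.P216T2
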