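import Vale.Agent.P216T2.Stm

/-!
# P216T2: local integrals of the cocycle and polygons with short steps
-/

open Set Filter Topology

namespace Vale.Agent.P216T2
open Vale.Agent.P216 Vale.Agent.P216.H494

variable {M G : Type} [MetricSpace M] [Group G] {C : LocalCocycle M G}

section
variable {Y : Type} [TopologicalSpace Y] {p p' : Y → M} {a a' : Y → G}

theorem Lf.comp {Z : Type} [TopologicalSpace Z] (h : Lf C p a) {q : Z → Y} (hq : Continuous q) :
    Lf C (fun z => p (q z)) (fun z => a (q z)) :=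
  fun z => (hq.tendsto z).eventually (h (q z))

theorem Lf.mul_left (h : Lf C p a) (g : G) : Lf C p (fun y => g * a y) := fun s =>
  (h s).mono fun s' hs => by simp only [hs, mul_assoc]

theorem Lf.unique [PreconnectedSpace Y] (h : Lf C p a) (h' : Lf C p a') {y : Y}
    (h0 : a y = a' y) (z : Y) : a z = a' z := by
  have hl : IsLocallyConstant fun s => a s * (a' s)⁻¹ := by
    rw [IsLocallyConstant.iff_eventually_eq]
    intro s
    filter_upwards [h s, h' s] with s' h1 h2
    rw [h1, h2]; group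
  have := hl.apply_eq_of_preconnectedSpace z y
  rw [h0, mul_inv_cancel] at this
  exact mul_inv_eq_one.1 this

theorem Lf.move (h : Lf C p a) (hp : Continuous p) (hp' : Continuous p')
    (hd : ∀ s, dist (p s) (p' s) < C.r / 2) : Lf C p' (fun s => a s * C.coc (p s) (p' s)) := by
  intro s
  have hr := C.r_pos
  have h1 : ∀ᶠ s' in 𝓝 s, dist (p s') (p s) < C.r / 2 :=
    Metric.tendsto_nhds.1 (hp.tendsto s) _ (by positivity)
  have h2 : ∀ᶠ s' in 𝓝 s, dist (p' s') (p' s) < C.r / 2 :=
    Metric.tendsto_nhds.1 (hp'.tendsto s) _ (by positivity)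
  filter_upwards [h s, h1, h2] with s' e1 e2 e3
  rw [dist_comm] at e2 e3
  have e4 : dist (p s) (p' s') < C.r := by
    have := dist_triangle (p s) (p' s) (p' s')
    linarith [hd s]
  rw [e1, mul_assoc, mul_assoc, C.mul' _ _ _ (by linarith) (by linarith [hd s']) e4,
    C.mul' _ _ _ (by linarith [hd s]) (by linarith) e4]
end

theorem lf_of_isLift {c : ℝ → M} {δ : ℝ} {f : ℝ → G} (hδ : 0 < δ) (h : C.IsLift c δ f) :
    Lf C c f := by
  intro s
  filter_upwards [Metric.ball_mem_nhds s hδ] with s' hs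
  rw [Metric.mem_ball, Real.dist_eq, abs_sub_comm] at hs
  rw [← h s s' hs.le]; group

variable {K : ℕ} [NeZero K]

/-- Polygons with steps at most `σ`. -/
def St (M : Type) [MetricSpace M] (K : ℕ) (σ : ℝ) : Set (ZMod K → M) :=
  {x | ∀ i, dist (x i) (x (i + 1)) ≤ σ}

omit [NeZero K] in
theorem isClosed_St (σ : ℝ) : IsClosed (St M K σ) := by
  unfold St
  rw [ofPred_forall]
  exact isClosed_iInter fun i => isClosed_le (by fun_prop) continuous_const

/-- The class of a polygon. -/
def cl (C : LocalCocycle M G) (x : ZMod K → M) : G := C.P (fun i : ℕ => x i) K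

omit [NeZero K] in
theorem St.step {σ : ℝ} {x : ZMod K → M} (hx : x ∈ St M K σ) (i : ℕ) :
    dist (x i) (x ((i + 1 : ℕ) : ZMod K)) ≤ σ := by
  rw [Nat.cast_succ]; exact hx _

omit [NeZero K] in
theorem cl_close {σ : ℝ} (hσ : σ < C.r / 2) {x y : ZMod K → M} (hx : x ∈ St M K σ)
    (hy : y ∈ St M K σ) (h : ∀ i, dist (x i) (y i) < C.r / 2) : IsConj (cl C x) (cl C y) :=
  C.P_isConj (fun i _ => (St.step hx i).trans_lt hσ) (fun i _ => (St.step hy i).trans_lt hσ)
    (fun _ _ => h _) (by simp) (by simp)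

/-- Polygons with short steps in a given class. -/
def Dc (C : LocalCocycle M G) (K : ℕ) [NeZero K] (σ : ℝ) (w : G) : Set (ZMod K → M) :=
  {x | x ∈ St M K σ ∧ IsConj w (cl C x)}

theorem isClosed_Dc {σ : ℝ} (hσ : σ < C.r / 2) (w : G) : IsClosed (Dc C K σ w) := by
  refine isClosed_of_closure_subset fun x hx => ?_
  have hxs : x ∈ St M K σ :=
    (isClosed_St σ).closure_subset (closure_mono (fun _ h => h.1) hx)
  obtain ⟨y, hy, hxy⟩ := Metric.mem_closure_iff.1 hx (C.r / 2) (by linarith [C.r_pos])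
  exact ⟨hxs, hy.2.trans (cl_close hσ hy.1 hxs fun i =>
    (dist_comm (y i) (x i)).trans_lt ((dist_le_pi_dist x y i).trans_lt hxy))⟩

/-- The class is constant along continuous families. -/
theorem cl_family {σ : ℝ} (hσ : σ < C.r / 2) {x : ℝ → ZMod K → M} (hc : Continuous x)
    (hx : ∀ s, x s ∈ St M K σ) {w : G} (h0 : IsConj w (cl C (x 0))) (s : ℝ) :
    x s ∈ Dc C K σ w := by
  have hl : IsLocallyConstant fun s => IsConj w (cl C (x s)) := by
    rw [IsLocallyConstant.iff_eventually_eq]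
    intro s
    have h1 : ∀ᶠ s' in 𝓝 s, dist (x s') (x s) < C.r / 2 :=
      Metric.tendsto_nhds.1 (hc.tendsto s) _ (by linarith [C.r_pos])
    filter_upwards [h1] with s' hs
    have := cl_close hσ (hx s') (hx s) fun i => (dist_le_pi_dist _ _ i).trans_lt hs
    exact propext ⟨fun h => h.trans this, fun h => h.trans this.symm⟩
  exact ⟨hx s, (hl.apply_eq_of_preconnectedSpace 0 s).mp h0⟩

variable {S : Segs M} {σ : ℝ}

theorem beta_St (hσ : σ < S.ρ) {x : ZMod K → M} (hx : x ∈ St M K σ) : S.beta x ∈ St M K σ := by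
  intro i
  have h := dist_H_le (S := S) (fun i => (hx i).trans_lt hσ) one_mem' i
  have h1 := hx (i - 1)
  have h2 := hx i
  have h3 := hx (i + 1)
  rw [sub_add_cancel] at h1
  rw [add_assoc, one_add_one_eq_two] at h3
  unfold Segs.beta
  linarith

theorem dist_beta (hσ : σ < S.ρ) {x : ZMod K → M} (hx : x ∈ St M K σ) (i : ZMod K) :
    dist (x i) (S.beta x i) ≤ σ := by
  have hx' : ∀ i, dist (x i) (x (i + 1)) < S.ρ := fun i => (hx i).trans_lt hσ
  have h1 := dist_bw hx' one_mem' i
  have h2 := dist_bw_fw hx' one_mem' i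
  have h3 := S.mid_dl (dist_bw_fw_lt hx' one_mem' i)
  have h4 := dist_triangle (x i) (S.bw 1 x i) (S.mid (S.bw 1 x i) (S.fw 1 x i))
  have h5 := hx (i - 1)
  have h6 := hx i
  rw [sub_add_cancel] at h5
  show dist (x i) (S.mid (S.bw 1 x i) (S.fw 1 x i)) ≤ σ
  linarith

theorem continuousOn_beta' (hσ : σ < S.ρ) : ContinuousOn (S.beta (k := K)) (St M K σ) := by
  have h := (continuousOn_H (S := S) (k := K)).comp
    (f := fun x : ZMod K → M => ((1 : ℝ), x)) (s := St M K σ) (by fun_prop)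
    (fun x hx => ⟨one_mem', fun i => (hx i).trans_lt hσ⟩)
  exact h

theorem beta_Dc (hσ : σ < S.ρ) (hr : σ < C.r / 2) {w : G} {x : ZMod K → M}
    (hx : x ∈ Dc C K σ w) : S.beta x ∈ Dc C K σ w :=
  ⟨beta_St hσ hx.1, hx.2.trans (cl_close hr hx.1 (beta_St hσ hx.1) fun i =>
    (dist_beta hσ hx.1 i).trans_lt hr)⟩

/-- The curve shortening pushes everything close to the minima if all critical points are
minima. -/
theorem exists_push [CompactSpace M] {D U : Set (ZMod K → M)} (hD : IsClosed D) (hσ : σ < S.ρ)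
    (hDs : D ⊆ St M K σ) (hβ : MapsTo S.beta D D) (hU : IsOpen U) {e : ℝ}
    (he : ∀ x ∈ D, e ≤ en x) (hc : ∀ x ∈ D, en x ≤ en (S.beta x) → en x ≤ e ∧ x ∈ U) :
    ∃ N : ℕ, ∀ x ∈ D, S.beta^[N] x ∈ U := by
  have hle : ∀ x ∈ D, en (S.beta x) ≤ en x := fun x hx =>
    en_H_le (fun i => (hDs hx i).trans_lt hσ) one_mem'
  obtain ⟨ε, hε, h1⟩ : ∃ ε > 0, ∀ x ∈ D, x ∉ U → e + ε ≤ en x := by
    rcases (D \ U).eq_empty_or_nonempty with h | h
    · exact ⟨1, one_pos, fun x hx hx' => absurd (h ▸ (⟨hx, hx'⟩ : x ∈ D \ U)) (notMem_empty x)⟩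
    · obtain ⟨y, hy, hm⟩ := (hD.sdiff hU).isCompact.exists_isMinOn h en_cont.continuousOn
      refine ⟨en y - e, ?_, fun x hx hx' => ?_⟩
      · by_contra hn
        exact hy.2 (hc y hy.1 (by linarith [he _ (hβ hy.1)])).2
      · have : en y ≤ en x := hm (⟨hx, hx'⟩ : x ∈ D \ U)
        linarith
  obtain ⟨δ, hδ, h2⟩ : ∃ δ > 0, ∀ x ∈ D, e + ε ≤ en x → en (S.beta x) ≤ en x - δ := by
    rcases (D ∩ {x | e + ε ≤ en x}).eq_empty_or_nonempty with h | h
    · exact ⟨1, one_pos, fun x hx hx' =>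
        absurd (h ▸ (⟨hx, hx'⟩ : x ∈ D ∩ {x | e + ε ≤ en x})) (notMem_empty x)⟩
    · obtain ⟨y, hy, hm⟩ := (hD.inter (isClosed_le continuous_const en_cont)).isCompact.exists_isMinOn
        (f := fun x => en x - en (S.beta x)) h (en_cont.continuousOn.sub
          (en_cont.comp_continuousOn ((continuousOn_beta' hσ).mono fun x hx => hDs hx.1)))
      refine ⟨en y - en (S.beta y), ?_, fun x hx hx' => ?_⟩
      · by_contra hn
        have := (hc y hy.1 (by linarith)).1
        have h3 : e + ε ≤ en y := hy.2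
        linarith
      · have : en y - en (S.beta y) ≤ en x - en (S.beta x) :=
          hm (⟨hx, hx'⟩ : x ∈ D ∩ {x | e + ε ≤ en x})
        linarith
  obtain ⟨B, hB⟩ := (hD.isCompact.image en_cont).bddAbove
  have h3 : ∀ n : ℕ, ∀ x ∈ D, en (S.beta^[n] x) < e + ε ∨ en (S.beta^[n] x) ≤ B - n * δ := by
    intro n x hx
    induction n with
    | zero => exact Or.inr (by simpa using hB (mem_image_of_mem _ hx))
    | succ n ih =>
      rw [Function.iterate_succ_apply']
      have hn : S.beta^[n] x ∈ D := hβ.iterate n hx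
      by_cases h : en (S.beta^[n] x) < e + ε
      · exact Or.inl ((hle _ hn).trans_lt h)
      · right
        have := h2 _ hn (not_lt.1 h)
        have h4 := ih.resolve_left h
        push_cast; linarith
  obtain ⟨N, hN⟩ := exists_nat_gt ((B - e) / δ)
  refine ⟨N, fun x hx => ?_⟩
  by_contra hn
  have h4 := h1 _ (hβ.iterate N hx) hn
  rw [div_lt_iff₀ hδ] at hN
  rcases h3 N x hx with h | h <;> linarith

/-- Families of polygons with an integral of the cocycle along the base vertex are transported by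
the curve shortening. -/
theorem family_iter (hσ : σ < S.ρ) (hr : σ < C.r / 2) {x : ℝ → ZMod K → M} (hc : Continuous x)
    (hx : ∀ s, x s ∈ St M K σ) {a : ℝ → G} (ha : Lf C (fun s => x s 0) a) (N : ℕ) :
    Continuous (fun s => S.beta^[N] (x s)) ∧ (∀ s, S.beta^[N] (x s) ∈ St M K σ) ∧
      ∃ b : ℝ → G, Lf C (fun s => S.beta^[N] (x s) 0) b ∧ ∀ s, S.beta (x s) = x s → b s = a s := by
  induction N with
  | zero => exact ⟨hc, hx, a, ha, fun _ _ => rfl⟩
  | succ n ih =>
    obtain ⟨h1, h2, b, h3, h4⟩ := ih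
    simp only [Function.iterate_succ_apply']
    have h5 : Continuous fun s => S.beta (S.beta^[n] (x s)) :=
      (continuousOn_beta' hσ).comp_continuous h1 h2
    refine ⟨h5, fun s => beta_St hσ (h2 s), _, h3.move ((continuous_apply 0).comp h1)
      ((continuous_apply 0).comp h5) fun s => (dist_beta hσ (h2 s) 0).trans_lt hr, fun s hs => ?_⟩
    simp only [Function.iterate_fixed hs, hs, C.self_eq, mul_one, h4 s hs]

end Vale.Agent.P216T2
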