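import Vale.Agent.P216T2.Pass
import Vale.Agent.P216TK.T2Goal
import Vale.Agent.P216.H494.Adapter
import Vale.Agent.P216.Smooth.Geo

/-!
# P216T2: assembly
-/

open scoped Manifold ContDiff

namespace Vale.Agent.P216T2
open Vale.Agent.P216

theorem t2_of (hA : T2A) (hC : T2C) (hD : T2D) : P216TK.T2Goal := by
  intro E _ _ _ M _ _ _ _ _ _ _ x₀ hfin htf hbs x hx
  have hM := hasSegments_of_riemannian 𝓘(ℝ, E) M
  obtain ⟨r₀, hr₀, hS⟩ := exists_smallPathsHomotopic E M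
  obtain ⟨G, _, e, C, hgen, hT⟩ := hC M x₀ r₀ hM hr₀ hS
  obtain ⟨L⟩ := H494.exists_geoList (nonBranching_of_riemannian E M) hfin
  obtain ⟨X, rfl⟩ := hD M G C L
  obtain ⟨ρ, hρ, hu, -⟩ := Geo.exists_uniqSeg E M
  obtain ⟨j, k, m, -, hm, hc, hL, hG⟩ := hA M G X x₀ hM hgen
    (fun y n hn h => e.symm.injective (by
      rw [map_one]; exact htf _ n hn (by rw [← map_pow, h, map_one])))
    (fun z t s hs h => e.symm.injective (by
      rw [map_one]; exact hbs _ (e.symm t) s hs (by rw [← map_pow, ← h]; simp)))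
    (e x) (by simpa using hx)
  obtain ⟨u, hu'⟩ := isConj_iff.1 hc
  refine ⟨e.symm (u⁻¹ * X.a j * u), fun y hy => ?_⟩
  have h1 : Commute (u * e y * u⁻¹) (X.a j ^ m) := by
    have h2 : Commute (e y) (e x ^ k) := (hy.symm.map e).pow_right k
    rw [← hu']
    exact h2.conj u
  obtain ⟨n, hn⟩ := t2b M G X (H494.Segs.ofUniqSeg hρ hu) hT j m _ hm hL hG h1
  refine ⟨n, e.injective ?_⟩
  simp only [map_zpow, MulEquiv.apply_symm_apply] at hn ⊢
  have h3 := conj_zpow (i := n) (a := u⁻¹) (b := X.a j)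
  rw [inv_inv] at h3
  rw [h3, hn]; group

end Vale.Agent.P216T2
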