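import Vale.Agent.P216T2.Smp
import Vale.Agent.P216T2.Fam
import Mathlib.Algebra.Order.Chebyshev

/-!
# P216T2: the mountain pass
-/

open Set Filter Topology

namespace Vale.Agent.P216T2
open Vale.Agent.P216 Vale.Agent.P216.H494

theorem t2b : T2B := by
  intro M G _ _ _ X S hT j m h hm hL hG hcomm
  have hlj := X.l_pos j
  have hm' : (0 : ℝ) < m := Nat.cast_pos.2 hm
  have hLpos : 0 < m * X.l j := by positivity
  have hfL : X.f j (m * X.l j) = X.a j ^ m := by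
    simpa [X.f0] using f_add X j m 0
  obtain ⟨Φ, F, hΦ, hp, h0, h1, hF, hF0, hF1⟩ := hT (X.c j) _ (X.f j) h (X.geo j).continuous hLpos
    ((X.per j).nat_mul m) (X.f0 j) (lf_of_isLift X.δ_pos (X.lift j)) (hfL ▸ hcomm)
  have hmin : 0 < min X.δ S.ρ := lt_min X.δ_pos S.ρ_pos
  obtain ⟨K₀, hK₀⟩ := exists_nat_gt (m * X.l j / min X.δ S.ρ)
  have hK0 : (0 : ℝ) < K₀ := lt_trans (by positivity) hK₀
  obtain ⟨σ, hσ, hKσ, hσm⟩ : ∃ σ > 0, K₀ * σ = m * X.l j ∧ σ < min X.δ S.ρ :=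
    ⟨m * X.l j / K₀, by positivity, by field_simp, by
      rw [div_lt_iff₀ hK0]; rw [div_lt_iff₀ hmin] at hK₀; linarith⟩
  have hσδ : σ < X.δ := hσm.trans_le (min_le_left _ _)
  have hσρ : σ < S.ρ := hσm.trans_le (min_le_right _ _)
  have hσr : σ < X.C.r / 2 := by linarith [X.δ_lt, X.δ_pos]
  obtain ⟨B, hB⟩ := exists_family hΦ hLpos hp (X.dist_le j) h0 h1 hF hσ hKσ
  obtain ⟨n₀, hn₀⟩ := hG (2 * B * σ)
  have hK1 : 0 < K₀ := Nat.cast_pos.1 hK0
  obtain ⟨K, hK⟩ : ∃ K, K = 2 * ((n₀ + 1) * K₀ + B) := ⟨_, rfl⟩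
  have : NeZero K := ⟨by rw [hK]; positivity⟩
  have hKp : (0 : ℝ) < K := Nat.cast_pos.2 (NeZero.pos K)
  obtain ⟨n, hn⟩ : ∃ n, n = 2 * (n₀ + 1) * m := ⟨_, rfl⟩
  have hnn : n₀ ≤ n := by rw [hn]; nlinarith
  have hnp : (0 : ℝ) < n := by rw [hn]; positivity
  obtain ⟨d, hd, hKd⟩ : ∃ d > 0, K * d = n * X.l j := ⟨n * X.l j / K, by positivity, by field_simp⟩
  have hKs : K * σ = n * X.l j + 2 * B * σ := by
    rw [hK, hn]; push_cast; linear_combination 2 * (n₀ + 1 : ℝ) * hKσ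
  have hdσ : d ≤ σ := by
    have : 0 ≤ 2 * B * σ := by positivity
    exact le_of_mul_le_mul_left (by linarith) hKp
  obtain ⟨x, a, T, hxc, hxs, ha, hx0, hxT, ha0, haT⟩ := hB (n₀ + 1) K d hK (by
    rw [hKd, hn]; push_cast; ring)
  have ex0 : x 0 = smp X K j d 0 := funext hx0
  have exT : x T = smp X K j d 0 := funext hxT
  have hxD : ∀ s, x s ∈ Dc X.C K σ (X.a j ^ n) := cl_family hσr hxc hxs
    (ex0 ▸ cl_smp hKd hd.le (by linarith))
  have hlow : ∀ y ∈ Dc X.C K σ (X.a j ^ n), K * d ≤ ∑ i, dist (y i) (y (i + 1)) := by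
    intro y hy
    have := hL n K (fun i : ℕ => y i) (by simp) (fun i _ => (St.step hy.1 i).trans_lt hσr) hy.2
    rw [sum_zmod_eq_sum_range, hKd]
    simpa using this
  have he : ∀ y ∈ Dc X.C K σ (X.a j ^ n), K * d ^ 2 ≤ en y := by
    intro y hy
    have h2 := sq_sum_le_card_mul_sum_sq (s := Finset.univ) (f := fun i => dist (y i) (y (i + 1)))
    rw [Finset.card_univ, ZMod.card] at h2
    have h3 := pow_le_pow_left₀ (by positivity) (hlow y hy) 2
    refine le_of_mul_le_mul_left ?_ hKp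
    unfold en
    linarith
  obtain ⟨η₁, hη₁, hs⟩ := exists_sep (S := S) (per_of hKd) hd (by linarith) (by linarith)
  obtain ⟨η, hη, hη1, hη2⟩ : ∃ η > 0, 2 * η ≤ η₁ ∧ 2 * η < X.C.r :=
    ⟨min (η₁ / 2) (X.C.r / 4), lt_min (by positivity) (by linarith [X.C.r_pos]),
      by linarith [min_le_left (η₁ / 2) (X.C.r / 4)],
      by linarith [min_le_right (η₁ / 2) (X.C.r / 4), X.C.r_pos]⟩
  let U : Set (ZMod K → M) :=
    {y | ∃ i b, Function.Periodic (X.c i) (K * d) ∧ dist y (smp X K i d b) < η}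
  have hU : IsOpen U := by
    rw [isOpen_iff_mem_nhds]
    rintro y ⟨i, b, hi, hb⟩
    filter_upwards [(continuous_id.dist continuous_const).continuousAt.eventually_lt
      continuousAt_const hb] with z hz using ⟨i, b, hi, hz⟩
  obtain ⟨N, hN⟩ := exists_push (S := S) (isClosed_Dc hσr (X.a j ^ n)) hσρ (fun _ h => h.1)
    (fun _ h => beta_Dc hσρ hσr h) hU he fun y hy hb => by
      have hy' : ∀ i, dist (y i) (y (i + 1)) < S.ρ := fun i => (hy.1 i).trans_lt hσρ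
      have hc := isCritAt_of_le hy' one_pos le_rfl hb
      have hds : dist (y 0) (y (0 + 1)) ≤ σ := hy.1 0
      generalize dist (y 0) (y (0 + 1)) = d' at hc hds
      have h2 : K * d ≤ K * d' := by
        simpa [fun i => (hc i).1, ZMod.card] using hlow y hy
      have hd' : 0 < d' := hd.trans_le (le_of_mul_le_mul_left h2 hKp)
      obtain ⟨i, b, m', hm1, rfl⟩ := crit_smp (X := X) hy' hc hd'
      have h3 := hn₀ n hnn i m' (hy.2.trans (cl_smp hm1 hd'.le (by linarith)).symm) (by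
        rw [← hm1, ← hKs]; exact mul_le_mul_of_nonneg_left hds hKp.le)
      obtain rfl : d' = d := mul_left_cancel₀ hKp.ne' (by rw [hm1, h3, hKd])
      exact ⟨(IsCritAt.en_eq hc).le, i, b, per_of hm1, by rwa [dist_self]⟩
  obtain ⟨hc', -, b, hb, hba⟩ := family_iter (S := S) hσρ hσr hxc hxs ha N
  have hfix : S.beta (smp X K j d 0) = smp X K j d 0 := by
    have hy : smp X K j d 0 ∈ Dc X.C K σ (X.a j ^ n) := ex0 ▸ hxD 0
    have hy' : ∀ i, dist (smp X K j d 0 i) (smp X K j d 0 (i + 1)) < S.ρ :=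
      fun i => (hy.1 i).trans_lt hσρ
    refine (isCritAt_of_le hy' one_pos le_rfl (le_trans ?_ (he _ (beta_Dc hσρ hσr hy)))).H_eq
      hy' one_mem'
    have := Finset.sum_le_card_nsmul Finset.univ
      (fun i => dist (smp X K j d 0 i) (smp X K j d 0 (i + 1)) ^ 2) (d ^ 2) fun i _ =>
        pow_le_pow_left₀ dist_nonneg (smp_St (per_of hKd) hd.le i) 2
    simpa [en, ZMod.card] using this
  have hs' : ∀ i b b', Function.Periodic (X.c i) (K * d) →
      dist (smp X K i d b) (smp X K j d b') < 2 * η →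
        i = j ∧ ∃ m : ℤ, |b' - b - m * X.l j| < X.δ := fun i b b' hi h => hs i b b' hi (h.trans_le hη1)
  have hg := good_const hη2 hs' hc' hb (fun s => hN _ (hxD s)) 0 T (by
    rw [hba 0 (ex0 ▸ hfix), ha0, hF0, ex0, Function.iterate_fixed hfix]
    exact ⟨0, by rwa [dist_self], by simp [smp_zero, X.C.self_eq, X.f0]⟩)
  rw [hba T (exT ▸ hfix), haT, hF1, exT, Function.iterate_fixed hfix,
    good_iff hη2 hs' (per_of hKd) (b := 0) (by rwa [dist_self])] at hg
  simpa [smp_zero, X.C.self_eq, X.f0] using hg.2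

end Vale.Agent.P216T2
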