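import Vale.Agent.P216T2.Lift

/-!
# P216T2: polygons sampled from the closed geodesics
-/

open Set Filter Topology

namespace Vale.Agent.P216T2
open Vale.Agent.P216 Vale.Agent.P216.H494

variable {M G : Type} [MetricSpace M] [Group G] (X : Ctx M G) {K : ℕ} [NeZero K]

/-- The polygon with vertices `c i (k d + b)`. -/
def smp (K : ℕ) (i : X.ι) (d b : ℝ) : ZMod K → M := fun k => X.c i (k.val * d + b)

variable {X} {i j : X.ι} {d b b' : ℝ}

theorem Ctx.dist_le (X : Ctx M G) (i : X.ι) (s t : ℝ) : dist (X.c i s) (X.c i t) ≤ |s - t| := by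
  simpa using (X.geo i).dist_le s t

omit [NeZero K] in
theorem per_of {m : ℕ} (h : K * d = m * X.l i) : Function.Periodic (X.c i) (K * d) :=
  h ▸ (X.per i).nat_mul m

theorem smp_int (h : Function.Periodic (X.c i) (K * d)) (k : ℤ) :
    smp X K i d b (k : ZMod K) = X.c i (k * d + b) := by
  have h1 : (((k : ZMod K).val : ℤ) : ℝ) = ((k % K : ℤ) : ℝ) := by rw [ZMod.val_intCast]
  have h2 : ((k % K : ℤ) : ℝ) = k - K * (k / K : ℤ) := by
    rw [Int.emod_def]; push_cast; ring
  have h3 := (h.int_mul (k / K)) (((k : ZMod K).val : ℝ) * d + b)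
  unfold smp
  rw [← h3]
  congr 1
  rw [Int.cast_natCast] at h1
  rw [h1, h2]; ring

theorem smp_nat (h : Function.Periodic (X.c i) (K * d)) (k : ℕ) :
    smp X K i d b (k : ZMod K) = X.c i (k * d + b) := by
  simpa using smp_int (b := b) h (k : ℤ)

omit [NeZero K] in
theorem smp_zero : smp X K i d b 0 = X.c i b := by simp [smp]

theorem smp_St (h : Function.Periodic (X.c i) (K * d)) (hd : 0 ≤ d) :
    smp X K i d b ∈ St M K d := by
  intro k
  have h1 := smp_nat (b := b) h (k.val + 1)
  rw [Nat.cast_succ, ZMod.natCast_zmod_val] at h1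
  rw [h1]
  refine (X.dist_le i _ _).trans (le_of_eq ?_)
  push_cast
  rw [show (k.val : ℝ) * d + b - ((k.val + 1) * d + b) = -d by ring, abs_neg, abs_of_nonneg hd]

omit [NeZero K] in
theorem continuous_smp : Continuous fun b => smp X K i d b :=
  continuous_pi fun _ => (X.geo i).continuous.comp (by fun_prop)

theorem f_add (X : Ctx M G) (i : X.ι) (m : ℤ) (t : ℝ) :
    X.f i (t + m * X.l i) = X.a i ^ m * X.f i t :=
  LocalCocycle.IsLift.periodic_zsmul X.C X.δ_pos (X.lift i) (X.f0 i) (X.per i) m t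

theorem cl_smp {m : ℕ} (h : K * d = m * X.l i) (hd : 0 ≤ d) (hδ : d ≤ X.δ) :
    IsConj (X.a i ^ m) (cl X.C (smp X K i d b)) := by
  have h1 : ∀ n : ℕ, X.C.P (fun k : ℕ => smp X K i d b k) n = (X.f i b)⁻¹ * X.f i (n * d + b) := by
    intro n
    induction n with
    | zero => simp [LocalCocycle.P]
    | succ n ih =>
      rw [X.C.P_succ, ih, smp_nat (per_of h), smp_nat (per_of h), ← X.lift i _ _ (by
        push_cast
        rwa [show (n : ℝ) * d + b - ((n + 1) * d + b) = -d by ring, abs_neg, abs_of_nonneg hd])]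
      group
  have h2 := f_add X i m b
  rw [Int.cast_natCast, zpow_natCast, ← h, add_comm] at h2
  unfold cl
  rw [h1, h2]
  exact isConj_iff.2 ⟨(X.f i b)⁻¹, by group⟩

/-- Critical polygons are sampled from the list. -/
theorem crit_smp {S : Segs M} {x : ZMod K → M} (hx : ∀ k, dist (x k) (x (k + 1)) < S.ρ)
    (hc : IsCritAt S 1 x d) (hd : 0 < d) :
    ∃ (i : X.ι) (b : ℝ) (m : ℕ), K * d = m * X.l i ∧ x = smp X K i d b := by
  have hK : (0 : ℝ) < K := Nat.cast_pos.2 (NeZero.pos K)
  have hp : Function.Periodic (fun t => crv S x (t / d)) (K * d) := fun t => by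
    have := crv_periodic (S := S) (x := x) (t / d)
    simp only []
    rw [← this]; congr 1; field_simp
  obtain ⟨i, b, h⟩ := X.all _ ((IsCritAt.isGeodesic hx hc).normalize hd) _ (by positivity) hp
  obtain ⟨-, m, hm⟩ := X.uniq i i (K * d) fun t => by
    have h1 := h (t - b)
    have h2 := h (t - b + K * d)
    have h3 := hp (t - b)
    simp only [] at h3
    rw [sub_add_cancel] at h1
    rw [← h1, ← h3, h2]; congr 1; ring
  have hm0 : 0 ≤ m := by
    have h1 : (0 : ℝ) < m * X.l i := hm ▸ by positivity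
    exact_mod_cast ((mul_pos_iff_of_pos_right (X.l_pos i)).1 h1).le
  lift m to ℕ using hm0
  refine ⟨i, b, m, by simpa using hm, funext fun k => ?_⟩
  have h1 := crv_int hx (k.val : ℤ)
  have h2 := h (k.val * d)
  simp only [Int.cast_natCast, ZMod.natCast_zmod_val] at h1
  rw [mul_div_cancel_right₀ _ hd.ne', h1] at h2
  exact h2

theorem smp_seg {S : Segs M} (h : Function.Periodic (X.c i) (K * d)) (hd : 0 < d) (hδ : d ≤ X.δ)
    (hρ : d < S.ρ) (t : ℝ) : X.c i (t + b) = S.seg (smp X K i d b (⌊t / d⌋ : ℤ))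
      (smp X K i d b ((⌊t / d⌋ + 1 : ℤ) : ZMod K)) (Int.fract (t / d)) := by
  rw [smp_int h, smp_int h]
  have h0 := Int.fract_nonneg (t / d)
  have h1 := Int.fract_lt_one (t / d)
  have h2 : t = (⌊t / d⌋ + Int.fract (t / d)) * d := by
    rw [Int.floor_add_fract]; field_simp
  set s := Int.fract (t / d)
  set k := ⌊t / d⌋
  have e : dist (X.c i (k * d + b)) (X.c i ((k + 1 : ℤ) * d + b)) = d := by
    have : |k * d + b - ((k + 1 : ℤ) * d + b)| = d := by
      push_cast
      rw [show (k : ℝ) * d + b - ((k + 1) * d + b) = -d by ring, abs_neg, abs_of_pos hd]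
    rw [X.scale i _ _ (this.trans_le hδ), this]
  refine S.uniq _ _ (e.trans_lt hρ) s ⟨h0, h1.le⟩ _ ?_ ?_
  · have : |k * d + b - (t + b)| = s * d := by
      rw [h2, show k * d + b - ((k + s) * d + b) = -(s * d) by ring, abs_neg,
        abs_of_nonneg (by positivity)]
    rw [e, X.scale i _ _ (this.trans_le (by nlinarith)), this]
  · have : |t + b - ((k + 1 : ℤ) * d + b)| = (1 - s) * d := by
      push_cast
      rw [h2, show (k + s) * d + b - ((k + 1) * d + b) = -((1 - s) * d) by ring, abs_neg,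
        abs_of_nonneg (by nlinarith)]
    rw [e, X.scale i _ _ (this.trans_le (by nlinarith)), this]

theorem smp_eq {S : Segs M} (hi : Function.Periodic (X.c i) (K * d))
    (hj : Function.Periodic (X.c j) (K * d)) (hd : 0 < d) (hδ : d ≤ X.δ) (hρ : d < S.ρ)
    (h : smp X K i d b = smp X K j d b') : i = j ∧ ∃ m : ℤ, b' - b = m * X.l j :=
  X.uniq i j _ fun t => by
    have h1 := smp_seg (b := b) (S := S) hi hd hδ hρ (t - b)
    have h2 := smp_seg (b := b') (S := S) hj hd hδ hρ (t - b)
    rw [sub_add_cancel, h, ← h2] at h1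
    rw [h1]; congr 1; ring

omit [NeZero K] in
theorem smp_add (m : ℤ) : smp X K i d (b + m * X.l i) = smp X K i d b :=
  funext fun k => by
    unfold smp
    rw [← add_assoc]; exact (X.per i).int_mul m _

theorem exists_red {l : ℝ} (hl : 0 < l) (b : ℝ) : ∃ m : ℤ, ∃ u ∈ Icc 0 l, b = u + m * l :=
  ⟨⌊b / l⌋, Int.fract (b / l) * l, ⟨mul_nonneg (Int.fract_nonneg _) hl.le,
    mul_le_of_le_one_left hl.le (Int.fract_lt_one _).le⟩, by
      rw [← add_mul, Int.fract_add_floor]; field_simp⟩

/-- The minimal polygons are uniformly separated. -/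
theorem exists_sep {S : Segs M} (hj : Function.Periodic (X.c j) (K * d)) (hd : 0 < d)
    (hδ : d ≤ X.δ) (hρ : d < S.ρ) : ∃ η > 0, ∀ i b b', Function.Periodic (X.c i) (K * d) →
      dist (smp X K i d b) (smp X K j d b') < η →
        i = j ∧ ∃ m : ℤ, |b' - b - m * X.l j| < X.δ := by
  have key : ∀ i : X.ι, ∃ η > 0, ∀ b b', Function.Periodic (X.c i) (K * d) →
      dist (smp X K i d b) (smp X K j d b') < η →
        i = j ∧ ∃ m : ℤ, |b' - b - m * X.l j| < X.δ := by
    intro i
    by_cases hi : Function.Periodic (X.c i) (K * d)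
    swap
    · exact ⟨1, one_pos, fun _ _ h => absurd h hi⟩
    let V : Set (ℝ × ℝ) := {q | i = j ∧ ∃ m : ℤ, |q.2 - q.1 - m * X.l j| < X.δ}
    have hV : IsOpen V := by
      by_cases hij : i = j
      · have : V = ⋃ m : ℤ, {q : ℝ × ℝ | |q.2 - q.1 - m * X.l j| < X.δ} := by
          ext q; simp [V, hij]
        rw [this]
        exact isOpen_iUnion fun m => isOpen_lt (by fun_prop) continuous_const
      · have : V = ∅ := by ext q; simp [V, hij]
        rw [this]; exact isOpen_empty
    have hA : IsCompact ((Icc 0 (X.l i) ×ˢ Icc 0 (X.l j)) \ V) :=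
      (isCompact_Icc.prod isCompact_Icc).diff hV
    have hc : Continuous fun q : ℝ × ℝ => dist (smp X K i d q.1) (smp X K j d q.2) :=
      (continuous_smp.comp continuous_fst).dist (continuous_smp.comp continuous_snd)
    obtain ⟨η, hη, h⟩ := hA.exists_forall_le' (a := 0) hc.continuousOn fun q hq => by
      refine dist_pos.2 fun e => hq.2 ?_
      obtain ⟨h1, m, hm⟩ := smp_eq (S := S) hi hj hd hδ hρ e
      exact ⟨h1, m, by rw [hm, sub_self, abs_zero]; exact X.δ_pos⟩
    refine ⟨η, hη, fun b b' _ hb => ?_⟩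
    obtain ⟨m, u, hu, rfl⟩ := exists_red (X.l_pos i) b
    obtain ⟨m', u', hu', rfl⟩ := exists_red (X.l_pos j) b'
    rw [smp_add, smp_add] at hb
    have hq : (u, u') ∈ V := by
      by_contra hn
      exact absurd (h (u, u') ⟨⟨hu, hu'⟩, hn⟩) (not_le.2 hb)
    obtain ⟨rfl, n, hn⟩ := hq
    refine ⟨rfl, n + m' - m, ?_⟩
    convert hn using 2
    push_cast; ring
  choose η hη h using key
  have := X.fin
  have : Nonempty X.ι := ⟨j⟩
  obtain ⟨i₀, h0⟩ := Finite.exists_min η
  exact ⟨η i₀, hη i₀, fun i b b' hi hb => h i b b' hi (hb.trans_le (h0 i))⟩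

theorem mem_of_near {m : ℤ} (h : |b' - b - m * X.l j| < X.δ) :
    X.f j b * X.C.coc (X.c j b) (X.c j b') * (X.f j b')⁻¹ ∈ Subgroup.zpowers (X.a j) := by
  have h1 := X.lift j (b + m * X.l j) b' (by
    rw [abs_sub_comm, ← sub_sub]; exact h.le)
  rw [(X.per j).int_mul m b, f_add] at h1
  rw [← h1]
  exact ⟨-m, by simp only []; group⟩

/-- The pair lies near a lifted minimal polygon on the axis. -/
def Good (X : Ctx M G) (j : X.ι) (d η : ℝ) (x : ZMod K → M) (g : G) : Prop :=
  ∃ b, dist x (smp X K j d b) < η ∧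
    g * X.C.coc (x 0) (X.c j b) * (X.f j b)⁻¹ ∈ Subgroup.zpowers (X.a j)

theorem good_iff {η : ℝ} (hη : 2 * η < X.C.r) (hs : ∀ i b b', Function.Periodic (X.c i) (K * d) →
      dist (smp X K i d b) (smp X K j d b') < 2 * η → i = j ∧ ∃ m : ℤ, |b' - b - m * X.l j| < X.δ)
    {x : ZMod K → M} {g : G} (hi : Function.Periodic (X.c i) (K * d))
    (hx : dist x (smp X K i d b) < η) : Good X j d η x g ↔
      i = j ∧ g * X.C.coc (x 0) (X.c i b) * (X.f j b)⁻¹ ∈ Subgroup.zpowers (X.a j) := by
  constructor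
  · rintro ⟨b', h1, h2⟩
    have h3 : dist (smp X K i d b) (smp X K i d b) = 0 := dist_self _
    obtain ⟨rfl, m, hm⟩ := hs i b b' hi (by
      have := dist_triangle_left (smp X K i d b) (smp X K j d b') x
      linarith)
    refine ⟨rfl, ?_⟩
    have e1 : dist (x 0) (X.c i b) < η := by
      rw [← smp_zero (K := K) (d := d)]; exact (dist_le_pi_dist _ _ 0).trans_lt hx
    have e2 : dist (x 0) (X.c i b') < η := by
      rw [← smp_zero (K := K) (d := d)]; exact (dist_le_pi_dist _ _ 0).trans_lt h1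
    have e3 := dist_triangle_left (X.c i b) (X.c i b') (x 0)
    have e0 := dist_nonneg (x := x 0) (y := X.c i b)
    have h4 := X.C.mul' (x 0) (X.c i b) (X.c i b') (by linarith) (by linarith) (by linarith)
    have h5 := Subgroup.mul_mem _ h2 (Subgroup.inv_mem _ (mem_of_near hm))
    convert h5 using 1
    rw [← h4]; group
  · rintro ⟨rfl, h⟩
    exact ⟨b, hx, h⟩

/-- The property is constant along families near the minimal polygons. -/
theorem good_const {η : ℝ} (hη : 2 * η < X.C.r)
    (hs : ∀ i b b', Function.Periodic (X.c i) (K * d) →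
      dist (smp X K i d b) (smp X K j d b') < 2 * η → i = j ∧ ∃ m : ℤ, |b' - b - m * X.l j| < X.δ)
    {x : ℝ → ZMod K → M} (hc : Continuous x) {a : ℝ → G} (ha : Lf X.C (fun s => x s 0) a)
    (hx : ∀ s, ∃ i b, Function.Periodic (X.c i) (K * d) ∧ dist (x s) (smp X K i d b) < η)
    (s t : ℝ) (h : Good X j d η (x s) (a s)) : Good X j d η (x t) (a t) := by
  have hl : IsLocallyConstant fun s => Good X j d η (x s) (a s) := by
    rw [IsLocallyConstant.iff_eventually_eq]
    intro s
    obtain ⟨i, b, hi, hb⟩ := hx s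
    have h1 : ∀ᶠ s' in 𝓝 s, dist (x s') (smp X K i d b) < η :=
      (hc.dist continuous_const).continuousAt.eventually_lt continuousAt_const hb
    filter_upwards [h1, ha s] with s' e1 e2
    have e3 : dist (x s 0) (X.c i b) < η := by
      rw [← smp_zero (K := K) (d := d)]; exact (dist_le_pi_dist _ _ 0).trans_lt hb
    have e4 : dist (x s' 0) (X.c i b) < η := by
      rw [← smp_zero (K := K) (d := d)]; exact (dist_le_pi_dist _ _ 0).trans_lt e1
    have e5 := dist_triangle_right (x s 0) (x s' 0) (X.c i b)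
    have e0 := dist_nonneg (x := x s 0) (y := X.c i b)
    have h4 := X.C.mul' (x s 0) (x s' 0) (X.c i b) (by linarith) (by linarith) (by linarith)
    rw [good_iff hη hs hi e1, good_iff hη hs hi hb, e2, mul_assoc (a s), h4]
  exact (hl.apply_eq_of_preconnectedSpace s t).mp h

end Vale.Agent.P216T2
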