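import Vale.Agent.P216.H494.Dict
import Vale.Agent.P216.H215.SFCC

/-!
# P216T2: centralisers are cyclic, the abstract statements
-/

open Set Filter Topology

namespace Vale.Agent.P216T2
open Vale.Agent.P216

/-- A local cocycle, a finite list of oriented prime closed geodesics and their lifts. -/
structure Ctx (M G : Type) [MetricSpace M] [Group G] where
  C : LocalCocycle M G
  ι : Type
  fin : Finite ι
  c : ι → ℝ → M
  l : ι → ℝ
  f : ι → ℝ → G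
  δ : ℝ
  δ_pos : 0 < δ
  δ_lt : 3 * δ < C.r
  l_pos : ∀ j, 0 < l j
  geo : ∀ j, IsGeodesicWithSpeed (c j) 1
  per : ∀ j, Function.Periodic (c j) (l j)
  all : ∀ γ : ℝ → M, IsGeodesicWithSpeed γ 1 → ∀ p > 0, Function.Periodic γ p →
    ∃ j b, ∀ t, γ t = c j (t + b)
  uniq : ∀ i j b, (∀ t, c i t = c j (t + b)) → i = j ∧ ∃ m : ℤ, b = m * l j
  scale : ∀ j s t, |s - t| ≤ δ → dist (c j s) (c j t) = |s - t|
  f0 : ∀ j, f j 0 = 1
  lift : ∀ j, C.IsLift (c j) δ (f j)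

variable {M G : Type} [MetricSpace M] [Group G]

/-- The class of the `j`-th geodesic. -/
def Ctx.a (X : Ctx M G) (j : X.ι) : G := X.f j (X.l j)

/-- All iterates of the `j`-th geodesic are minimal in their classes. -/
def Ctx.Low (X : Ctx M G) (j : X.ι) : Prop :=
  ∀ (n K : ℕ) (y : ℕ → M), y K = y 0 → (∀ i < K, dist (y i) (y (i + 1)) < X.C.r / 2) →
    IsConj (X.a j ^ n) (X.C.P y K) →
    n * X.l j ≤ ∑ i ∈ Finset.range K, dist (y i) (y (i + 1))

/-- Closed geodesics in the class of a high iterate with bounded excess have no excess. -/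
def Ctx.Gap (X : Ctx M G) (j : X.ι) : Prop :=
  ∀ B : ℝ, ∃ n₀ : ℕ, ∀ n ≥ n₀, ∀ (i : X.ι) (m : ℕ), IsConj (X.a j ^ n) (X.a i ^ m) →
    m * X.l i ≤ n * X.l j + B → m * X.l i = n * X.l j

/-- `a` is a local integral of the cocycle along `p`. -/
def Lf {Y : Type} [TopologicalSpace Y] (C : LocalCocycle M G) (p : Y → M) (a : Y → G) : Prop :=
  ∀ s, ∀ᶠ s' in 𝓝 s, a s' = a s * C.coc (p s) (p s')

/-- Commuting elements give tori. -/
def Tor (C : LocalCocycle M G) : Prop :=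
  ∀ (c : ℝ → M) (L : ℝ) (f : ℝ → G) (h : G), Continuous c → 0 < L → Function.Periodic c L →
    f 0 = 1 → Lf C c f → Commute h (f L) →
    ∃ (Φ : ℝ × ℝ → M) (F : ℝ × ℝ → G), Continuous Φ ∧ (∀ s t, Φ (s, t + L) = Φ (s, t)) ∧
      (∀ t, Φ (0, t) = c t) ∧ (∀ t, Φ (1, t) = c t) ∧ Lf C Φ F ∧ F (0, 0) = 1 ∧ F (1, 0) = h

/-- **T2A**: stable length. -/
def T2A : Prop :=
  ∀ (M G : Type) [MetricSpace M] [CompactSpace M] [Group G] (X : Ctx M G) (x₀ : M),
    HasSegments M → (∀ g : G, ∃ n : ℕ, 0 < n ∧ X.C.HasBased x₀ 1 g n) →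
    (∀ (x : G) (n : ℕ), n ≠ 0 → x ^ n = 1 → x = 1) →
    (∀ (z t : G) (s : ℕ), s ≠ 0 → t * z * t⁻¹ = z ^ (3 ^ s) → z = 1) →
    ∀ x : G, x ≠ 1 → ∃ (j : X.ι) (k m : ℕ), 0 < k ∧ 0 < m ∧ IsConj (x ^ k) (X.a j ^ m) ∧
      X.Low j ∧ X.Gap j

/-- **T2B**: the mountain pass. -/
def T2B : Prop :=
  ∀ (M G : Type) [MetricSpace M] [CompactSpace M] [Group G] (X : Ctx M G) (_ : H494.Segs M),
    Tor X.C → ∀ (j : X.ι) (m : ℕ) (h : G), 0 < m → X.Low j → X.Gap j → Commute h (X.a j ^ m) →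
      h ∈ Subgroup.zpowers (X.a j)

/-- **T2C**: the cocycle with values in the fundamental group. -/
def T2C : Prop :=
  ∀ (M : Type) [MetricSpace M] (x₀ : M) (r₀ : ℝ), HasSegments M → 0 < r₀ →
    SmallPathsHomotopic M r₀ → ∃ (G : Type) (_ : Group G) (_ : FundamentalGroup M x₀ ≃* G)
      (C : LocalCocycle M G), (∀ g : G, ∃ n : ℕ, 0 < n ∧ C.HasBased x₀ 1 g n) ∧ Tor C

/-- **T2D**: the oriented list. -/
def T2D : Prop :=
  ∀ (M G : Type) [MetricSpace M] [Group G] (C : LocalCocycle M G) (_ : H494.GeoList M),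
    ∃ X : Ctx M G, X.C = C

end Vale.Agent.P216T2
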